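import Vale.Agent.P197.Specht.Tabloid

/-!
P197: every linear character of the row stabiliser has a slice.

For a character `χ` the function `g ↦ ∑ r, χ r * tabloid (colFn ∘ r ∘ g)` is an integral coefficient
function. Modulo two it does not depend on `χ`, vanishes off `R C`, and equals one at the
permutation reversing every row, since the staircase has a unique filling whose rows and columns
are both initial segments. Hence the convolution matrix on `C` has odd determinant.
-/

namespace Vale.Agent.P197.Specht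

open Finset
open scoped Classical

variable {m : ℕ}

/-- Reversal of every row. -/
def rev (m : ℕ) : G m :=
  Function.Involutive.toPerm
    (fun b => ⟨(b.1.1, ⟨m - 1 - (b.1.1 : ℕ) - (b.1.2 : ℕ), by have := b.1.1.2; omega⟩), by
      show (b.1.1 : ℕ) + (m - 1 - (b.1.1 : ℕ) - (b.1.2 : ℕ)) < m
      have := b.2
      omega⟩)
    (fun b => Subtype.ext (Prod.ext rfl (Fin.ext (by
      have := b.2
      show m - 1 - (b.1.1 : ℕ) - (m - 1 - (b.1.1 : ℕ) - (b.1.2 : ℕ)) = (b.1.2 : ℕ)
      omega))))

theorem rev_mem : rev m ∈ R m := fun _ => rfl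

theorem rev_val (b : Box m) :
    (colFn (rev m b) : ℕ) = m - 1 - (rowFn b : ℕ) - (colFn b : ℕ) := rfl

theorem box_ext {a b : Box m} (h1 : rowFn a = rowFn b) (h2 : colFn a = colFn b) : a = b :=
  Subtype.ext (Prod.ext h1 h2)

theorem box_lt (b : Box m) : (rowFn b : ℕ) + (colFn b : ℕ) < m := b.2

/-- A box given by its coordinates. -/
def mkBox (i j : ℕ) (h : i + j < m) : Box m := ⟨(⟨i, by omega⟩, ⟨j, by omega⟩), h⟩

@[simp] theorem row_mkBox {i j : ℕ} (h : i + j < m) : (rowFn (mkBox i j h) : ℕ) = i := rfl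

@[simp] theorem col_mkBox {i j : ℕ} (h : i + j < m) : (colFn (mkBox i j h) : ℕ) = j := rfl

/-- Only the identity of `C`, composed with the row reversal, stays in `R C`. -/
theorem eq_one_of_mem {c : G m} (hc : c ∈ C m) {r c' : G m} (hr : r ∈ R m) (hc' : c' ∈ C m)
    (h : c * rev m = r * c') : c = 1 := by
  have hrr : ∀ b, rev m (rev m b) = b := fun b => Function.Involutive.toPerm_involutive _ b
  have key : ∀ b, rowFn (c b) = rowFn (c' (rev m b)) := fun b => by
    have := congrArg (fun g : G m => g (rev m b)) h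
    simp only [Equiv.Perm.mul_apply, hrr] at this
    rw [this, hr]
  suffices hN : ∀ N b, ((rowFn b : ℕ) + (colFn b : ℕ)) * m + (colFn b : ℕ) = N → c b = b from
    Equiv.ext fun b => hN _ b rfl
  intro N
  induction N using Nat.strong_induction_on with
  | _ N ih =>
    intro b hb
    have hlt := box_lt b
    have hv : (rowFn (c b) : ℕ) ≤ rowFn b + colFn b := by
      have h1 := box_lt (c' (rev m b))
      rw [← key b, hc', rev_val] at h1
      omega
    by_contra hne
    have hrow : (rowFn (c b) : ℕ) ≠ rowFn b := fun e => hne (box_ext (Fin.ext e) (hc b))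
    rcases lt_or_gt_of_ne hrow with h1 | h1
    · have h2 : (rowFn (c b) : ℕ) + (colFn b : ℕ) < m := by omega
      have h3 := ih _ (by
        simp only [row_mkBox, col_mkBox]
        rw [← hb]
        have : ((rowFn (c b) : ℕ) + (colFn b : ℕ) + 1) * m ≤ ((rowFn b : ℕ) + (colFn b : ℕ)) * m :=
          Nat.mul_le_mul_right m (by omega)
        simp only [add_mul, one_mul] at this ⊢
        have := (colFn b).2
        omega) (mkBox _ _ h2) rfl
      have h4 : c (mkBox _ _ h2) = c b := by
        rw [h3]
        exact box_ext (Fin.ext (by simp)) (by rw [hc]; exact Fin.ext (by simp))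
      exact hrow (by simpa using congrArg (fun x => (rowFn x : ℕ)) (c.injective h4))
    · set j := (rowFn b : ℕ) + (colFn b : ℕ) - (rowFn (c b) : ℕ) with hj
      have h2 : (rowFn (c b) : ℕ) + j < m := by omega
      have hd : (rowFn (c b) : ℕ) + j = (rowFn b : ℕ) + (colFn b : ℕ) := by omega
      have h3 := ih _ (by simp [← hb, hd]; omega) (mkBox _ _ h2) rfl
      have h4 : c' (rev m (mkBox _ _ h2)) = c' (rev m b) := by
        refine box_ext ?_ ?_
        · rw [← key, ← key, h3]
          exact Fin.ext (by simp)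
        · rw [hc', hc']
          refine Fin.ext ?_
          rw [rev_val, rev_val, row_mkBox, col_mkBox]
          omega
      have h5 := congrArg (fun x => (rowFn x : ℕ)) ((rev m).injective (c'.injective h4))
      simp at h5
      omega

/-- The staircase has a unique filling that is at once a row and a column filling. -/
theorem eq_rev {r c : G m} (hr : r ∈ R m) (hc : c ∈ C m)
    (h : colFn ∘ ⇑r = (rowFn ∘ ⇑c : Box m → Fin m)) : r = rev m := by
  suffices hN : ∀ N b, ((rowFn b : ℕ) + (colFn b : ℕ)) * m + (rowFn b : ℕ) = N →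
      (colFn (r b) : ℕ) = m - 1 - (rowFn b : ℕ) - (colFn b : ℕ) from
    Equiv.ext fun b => box_ext (hr b) (Fin.ext (by rw [hN _ b rfl, rev_val]))
  intro N
  induction N using Nat.strong_induction_on with
  | _ N ih =>
    intro b hb
    have hlt := box_lt b
    have hw : (rowFn b : ℕ) + (m - 1 - (rowFn b : ℕ) - (colFn b : ℕ)) < m := by omega
    set b' := r.symm (mkBox _ _ hw) with hb'
    have hcol : (colFn (r b') : ℕ) = m - 1 - (rowFn b : ℕ) - (colFn b : ℕ) := by simp [hb']
    have hrow : (rowFn b' : ℕ) = rowFn b := by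
      rw [← hr b', hb', Equiv.apply_symm_apply, row_mkBox]
    have hlt' := box_lt b'
    have hle : (colFn b' : ℕ) ≤ (rowFn b : ℕ) + (colFn b : ℕ) := by
      have h1 := box_lt (c b')
      have h2 := congrFun h b'
      simp only [Function.comp_apply] at h2
      rw [← h2, hc, hcol] at h1
      omega
    rcases lt_trichotomy ((rowFn b' : ℕ) + (colFn b' : ℕ))
        ((rowFn b : ℕ) + (colFn b : ℕ)) with h1 | h1 | h1
    · have h3 := ih _ (by
        rw [← hb]
        have : ((rowFn b' : ℕ) + (colFn b' : ℕ) + 1) * m ≤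
            ((rowFn b : ℕ) + (colFn b : ℕ)) * m := Nat.mul_le_mul_right m (by omega)
        simp only [add_mul, one_mul] at this ⊢
        have := (rowFn b').2
        omega) b' rfl
      omega
    · have : b' = b := box_ext (Fin.ext hrow) (Fin.ext (by omega))
      rwa [this] at hcol
    · set i := (rowFn b : ℕ) + (colFn b : ℕ) - (colFn b' : ℕ) with hi
      have h2 : i + (colFn b' : ℕ) < m := by omega
      have hd : i + (colFn b' : ℕ) = (rowFn b : ℕ) + (colFn b : ℕ) := by omega
      have h3 := ih _ (by simp [← hb, hd]; omega) (mkBox _ _ h2) rfl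
      rw [row_mkBox, col_mkBox] at h3
      have h4 : colFn (r (mkBox _ _ h2)) = colFn (r b') := Fin.ext (by omega)
      have h5 : c (mkBox _ _ h2) = c b' :=
        box_ext ((congrFun h _).symm.trans (h4.trans (congrFun h b')))
          (by rw [hc, hc]; exact Fin.ext (by simp))
      have h6 := congrArg (fun x => (rowFn x : ℕ)) (c.injective h5)
      simp at h6
      omega

theorem colFn_rev : ∃ c ∈ C m, colFn ∘ ⇑(rev m) = (rowFn ∘ ⇑c : Box m → Fin m) := by
  have hf : ∀ b : Box m, m - 1 - (rowFn b : ℕ) - (colFn b : ℕ) + (colFn b : ℕ) < m := fun b => by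
    have := box_lt b
    omega
  have hinv : Function.Involutive fun b : Box m => mkBox _ _ (hf b) := fun b => by
    have := box_lt b
    exact box_ext (Fin.ext (by simp; omega)) (Fin.ext (by simp))
  refine ⟨Function.Involutive.toPerm _ hinv, fun b => Fin.ext (by simp), funext fun b => ?_⟩
  exact Fin.ext (by simp [rev_val])

/-- A linear character of the row stabiliser takes the values one and minus one. -/
theorem chi_pm (χ : R m →* ℂ) (r : R m) : χ r = 1 ∨ χ r = -1 := by
  classical
  suffices h : ∀ N, ∀ r : R m, (r : G m).support.card = N → χ r = 1 ∨ χ r = -1 from h _ r rfl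
  intro N
  induction N using Nat.strong_induction_on with
  | _ N ih =>
    intro r hN
    by_cases h : (r : G m).support = ∅
    · rw [show r = 1 from Subtype.ext (Equiv.Perm.support_eq_empty_iff.1 h), map_one]
      exact Or.inl rfl
    obtain ⟨x, hx⟩ := nonempty_iff_ne_empty.2 h
    have hx' : (r : G m) x ≠ x := Equiv.Perm.mem_support.1 hx
    have hs : Equiv.swap x ((r : G m) x) ∈ R m := fun b => by
      rw [Equiv.swap_apply_def]
      split_ifs with h1 h2
      · rw [h1, r.2]
      · rw [h2, r.2]
      · rfl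
    set s : R m := ⟨_, hs⟩
    have hsq : χ s * χ s = 1 := by
      rw [← map_mul, show s * s = 1 from Subtype.ext (Equiv.swap_mul_self _ _), map_one]
    have hlt := ih _ (hN ▸ Equiv.Perm.card_support_swap_mul hx') (s * r) rfl
    rw [show r = s * (s * r) from Subtype.ext (by simp [s]), map_mul χ s (s * r)]
    rcases mul_self_eq_one_iff.1 hsq with h1 | h1 <;> rcases hlt with h2 | h2 <;>
      simp [h1, h2]

/-- The integral form of the polytabloid. -/
noncomputable def tabZ (m : ℕ) (t : Box m → Fin m) : ℤ :=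
  ∑ c : C m, if t = rowFn ∘ (c : G m) then (Equiv.Perm.sign (c : G m) : ℤ) else 0

theorem tabZ_cast (t : Box m → Fin m) : ((tabZ m t : ℤ) : ℂ) = tabloid m t := by
  classical
  rw [tabZ, tabloid, Int.cast_sum]
  refine sum_congr rfl fun c _ => ?_
  split_ifs <;> simp [sgn]

theorem unit_mod (u : ℤˣ) : ((u : ℤ) : ZMod 2) = 1 := by
  rcases Int.units_eq_one_or u with h | h <;> rw [h] <;> decide

theorem tabZ_mod (t : Box m → Fin m) :
    ((tabZ m t : ℤ) : ZMod 2) = if tabloid m t = 0 then 0 else 1 := by
  by_cases hex : ∃ c : C m, t = rowFn ∘ (c : G m)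
  · obtain ⟨c, rfl⟩ := hex
    have h1 : tabloid m (rowFn ∘ (c : G m)) ≠ 0 := by
      rw [tabloid_col _ c.2, tabloid_row, mul_one]
      intro h0
      simpa [h0] using sgn_mul_self (c : G m)
    rw [if_neg h1, tabZ, Int.cast_sum, Fintype.sum_eq_single c]
    · rw [if_pos rfl, unit_mod]
    · intro a ha
      rw [if_neg, Int.cast_zero]
      intro e
      refine ha (Subtype.ext ?_)
      have h2 : ((a : G m) * (c : G m)⁻¹) ∈ R m := fun b => by
        simpa using (congrFun e ((c : G m)⁻¹ b)).symm
      exact mul_inv_eq_one.1 (eq_one h2 ((C m).mul_mem a.2 ((C m).inv_mem c.2)))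
  · push Not at hex
    rw [if_pos, tabZ, sum_eq_zero fun c _ => if_neg (hex c), Int.cast_zero]
    exact sum_eq_zero fun c _ => if_neg (hex c)

/-- The parity of the number of row permutations landing on a column filling. -/
theorem parity {g : G m} (h : ¬ ∃ r ∈ R m, ∃ c ∈ C m, g = r * c) :
    ∑ r : R m, ((tabZ m (colFn ∘ ⇑((r : G m) * g)) : ℤ) : ZMod 2) = 0 := by
  classical
  have hinj : ¬ ∀ a b, colFn a = colFn b → rowFn (g a) = rowFn (g b) → a = b := fun hinj => by
    obtain ⟨c, hc, e⟩ := exists_col g hinj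
    exact h ⟨g * c⁻¹, fun b => by simpa using congrFun e (c⁻¹ b), c, hc, by simp⟩
  push Not at hinj
  obtain ⟨a, b, hab, he, hne⟩ := hinj
  have hs : Equiv.swap (g a) (g b) ∈ R m := fun x => by
    rw [Equiv.swap_apply_def]
    split_ifs with h1 h2
    · rw [h1, he]
    · rw [h2, he]
    · rfl
  have hC : Equiv.swap a b ∈ C m := fun x => by
    rw [Equiv.swap_apply_def]
    split_ifs with h1 h2
    · rw [h1, hab]
    · rw [h2, hab]
    · rfl
  have hinv : ∀ r : G m, ((tabZ m (colFn ∘ ⇑(r * Equiv.swap (g a) (g b) * g)) : ℤ) : ZMod 2) =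
      ((tabZ m (colFn ∘ ⇑(r * g)) : ℤ) : ZMod 2) := by
    intro r
    have e : (colFn ∘ ⇑(r * Equiv.swap (g a) (g b) * g) : Box m → Fin m) =
        (colFn ∘ ⇑(r * g)) ∘ ⇑(Equiv.swap a b) := by
      funext x
      simp [g.injective.map_swap]
    rw [e, tabZ_mod, tabZ_mod, tabloid_col _ hC]
    simp [mul_eq_zero, sgn]
    congr
  refine sum_involution (fun r _ => r * ⟨_, hs⟩) (fun r _ => ?_) (fun r _ _ e => ?_)
    (fun r _ => mem_univ _) fun r _ => ?_
  · rw [Subgroup.coe_mul, hinv]
    exact CharTwo.add_self_eq_zero _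
  · have := congrArg Subtype.val (mul_eq_left.1 e)
    exact hne (g.injective (Equiv.swap_eq_refl_iff.1 this))
  · exact Subtype.ext (by simp [mul_assoc])

theorem parity_rev :
    ∑ r : R m, ((tabZ m (colFn ∘ ⇑((r : G m) * rev m)) : ℤ) : ZMod 2) = 1 := by
  classical
  rw [Fintype.sum_eq_single (1 : R m)]
  · obtain ⟨c, hc, e⟩ := colFn_rev (m := m)
    rw [Subgroup.coe_one, one_mul, e, tabZ_mod, tabloid_col c hc, tabloid_row, mul_one, if_neg]
    intro h0
    simpa [h0] using sgn_mul_self c
  · intro r hr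
    rw [tabZ_mod, if_pos]
    by_contra h0
    obtain ⟨c, -, hc⟩ := exists_ne_zero_of_sum_ne_zero h0
    have e : colFn ∘ ⇑((r : G m) * rev m) = (rowFn ∘ ⇑(c : G m) : Box m → Fin m) :=
      by_contra fun h => hc (if_neg h)
    exact hr (Subtype.ext (mul_eq_right.1
      (eq_rev ((R m).mul_mem r.2 rev_mem) c.2 e)))

/-- Every linear character of the row stabiliser has a slice. -/
theorem slice (χ : R m →* ℂ) : Slice m χ := by
  classical
  let s : R m → ℤ := fun r => if χ r = 1 then 1 else -1
  have hs : ∀ r, χ r = s r := fun r => by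
    rcases chi_pm χ r with h | h <;> simp [s, h]
  have hsm : ∀ r, ((s r : ℤ) : ZMod 2) = 1 := fun r => by
    simp only [s]
    split_ifs <;> decide
  let A : Matrix (C m) (C m) ℤ := Matrix.of fun c c' =>
    ∑ r : R m, s r * tabZ m (colFn ∘ ⇑((r : G m) * ((c : G m) * (c' : G m)⁻¹ * rev m)))
  have hA : A.map (Int.castRingHom (ZMod 2)) = 1 := by
    ext c c'
    simp only [Matrix.map_apply, A, Matrix.of_apply, map_sum, map_mul, eq_intCast, hsm, one_mul]
    by_cases h : c = c'
    · subst h
      rw [Matrix.one_apply_eq, mul_inv_cancel, one_mul]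
      exact parity_rev
    · rw [Matrix.one_apply_ne h]
      refine parity fun ⟨r, hr, d, hd, e⟩ => h (Subtype.ext ?_)
      exact mul_inv_eq_one.1 (eq_one_of_mem ((C m).mul_mem c.2 ((C m).inv_mem c'.2)) hr hd e)
  have hdet : IsUnit (A.map (Int.castRingHom ℂ)) := by
    rw [Matrix.isUnit_iff_isUnit_det, isUnit_iff_ne_zero, ← RingHom.mapMatrix_apply,
      ← RingHom.map_det, eq_intCast, Int.cast_ne_zero]
    intro h0
    have h1 := RingHom.map_det (Int.castRingHom (ZMod 2)) A
    rw [RingHom.mapMatrix_apply, hA, Matrix.det_one, h0, map_zero] at h1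
    exact zero_ne_one h1
  obtain ⟨a, ha⟩ := Matrix.mulVec_surjective_iff_isUnit.2 hdet (Pi.single 1 1)
  let φ : M m →ₗ[ℂ] ℂ :=
    ∑ r : R m, χ r • LinearMap.proj (colFn ∘ ⇑(r : G m) : Box m → Fin m)
  have hφ : ∀ x, φ x = ∑ r : R m, χ r * x (colFn ∘ ⇑(r : G m)) := fun x => by simp [φ]
  let F : G m → ℂ := fun g => ∑ c' : C m,
    a c' * φ (act m g (act m ((c' : G m)⁻¹ * rev m) (tabloid m)))
  have hF : F ∈ Coef m := by
    have e : F = ∑ c' : C m, a c' •
        fun g => φ (act m g (act m ((c' : G m)⁻¹ * rev m) (tabloid m))) := by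
      funext g
      simp [F]
    rw [e]
    exact sum_mem fun c' _ => Submodule.smul_mem _ _
      (Submodule.subset_span ⟨φ, _, act_mem _ tabloid_mem, rfl⟩)
  have heq : ∀ (r : R m) (g : G m) (x : M m),
      φ (act m ((r : G m) * g) x) = χ r * φ (act m g x) := by
    intro r g x
    rw [hφ, hφ, mul_sum]
    refine Fintype.sum_equiv (Equiv.mulRight r) _ _ fun q => ?_
    simp only [Equiv.coe_mulRight, map_mul χ q r]
    have hr : χ r * χ r = 1 := by rcases chi_pm χ r with h | h <;> simp [h]
    show χ q * act m ((r : G m) * g) x (colFn ∘ ⇑(q : G m)) =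
      χ r * (χ q * χ r * act m g x (colFn ∘ ⇑((q * r : R m) : G m)))
    have e : act m ((r : G m) * g) x (colFn ∘ ⇑(q : G m)) =
        act m g x (colFn ∘ ⇑((q * r : R m) : G m)) := rfl
    rw [e, show ∀ u v w : ℂ, u * (v * u * w) = u * u * (v * w) from fun u v w => by ring, hr,
      one_mul]
  have hrc : ∀ (r : R m) (c : C m),
      F ((r : G m) * (c : G m)) = χ r * (Pi.single 1 1 : C m → ℂ) c := by
    intro r c
    rw [← ha, Matrix.mulVec, dotProduct, mul_sum]
    refine sum_congr rfl fun c' _ => ?_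
    simp only [Matrix.map_apply, A, Matrix.of_apply, eq_intCast, Int.cast_sum]
    rw [heq, ← act_mul, hφ, mul_left_comm (a c') (χ r), mul_comm (a c')]
    congr 2
    refine sum_congr rfl fun q _ => ?_
    rw [Int.cast_mul, tabZ_cast, ← hs, mul_assoc (c : G m)]
    rfl
  refine ⟨F, hF, fun r => ⟨fun c hc => ?_, ?_⟩⟩
  · rw [hrc, Pi.single_eq_of_ne hc, mul_zero]
  · simpa using hrc r 1

end Vale.Agent.P197.Specht
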