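import Vale.Agent.P197.Square
import Vale.Agent.P197.Specht.Parity

/-!
P197: every representation with an eigenvector of the row stabiliser maps to the tensor square of
the staircase Specht module.
-/

namespace Vale.Agent.P197.Specht

open scoped TensorProduct

variable {m : ℕ}

theorem S_le_comap (m : ℕ) (g : G m) : S m ≤ (S m).comap (act m g) := fun _ hx => act_mem g hx

/-- The Specht module of the staircase as a representation. -/
noncomputable def specht (m : ℕ) : Representation ℂ (G m) (S m) :=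
  (act m).subrepresentation (S m) (S_le_comap m)

theorem coef_le : Coef m ≤ coefFns (specht m) := by
  refine Submodule.span_le.2 ?_
  rintro F ⟨φ, v, hv, rfl⟩
  exact mem_coefFns (specht m) (φ.comp (S m).subtype) ⟨v, hv⟩

/-- A character slice gives an equivariant map into the tensor square. -/
theorem exists_map_of_slice {χ : R m →* ℂ} (hs : Slice m χ) {W : Type*} [AddCommGroup W]
    [Module ℂ W] (σ : Representation ℂ (G m) W) {u : W} (hu : u ≠ 0)
    (heig : ∀ r : R m, σ (r : G m) u = χ r • u) :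
    ∃ T : W →ₗ[ℂ] S m ⊗[ℂ] S m, T ≠ 0 ∧
      ∀ g x, T (σ g x) = (specht m).tprod (specht m) g (T x) := by
  classical
  obtain ⟨F, hF, hv⟩ := hs
  refine exists_map_of_eigenvector (specht m) σ (R m)
    (fun g => if hg : g ∈ R m then χ ⟨g, hg⟩ else 0) (h := fun g => tabloid m (rowFn ∘ g))
    (coef_le hF)
    (coef_le (Submodule.subset_span ⟨LinearMap.proj rowFn, tabloid m, tabloid_mem, rfl⟩))
    (fun r hr => ?_) (fun g hg => ?_) hu fun r hr => ?_
  · show F r * tabloid m (rowFn ∘ r) = _
    rw [comp_row hr, tabloid_row, mul_one, (hv ⟨r, hr⟩).2, dif_pos hr]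
  · show F g * tabloid m (rowFn ∘ g) = 0
    by_contra hne
    obtain ⟨r, hr, c, hc, rfl⟩ := tabloid_ne_zero (right_ne_zero_of_mul hne)
    refine left_ne_zero_of_mul hne ((hv ⟨r, hr⟩).1 ⟨c, hc⟩ fun e => hg ?_)
    rw [show c = 1 from congrArg Subtype.val e, mul_one]
    exact hr
  · rw [heig ⟨r, hr⟩, dif_pos hr]

/-- An irreducible representation with an eigenvector of the row stabiliser embeds in the tensor
square. -/
theorem exists_injective_map (χ : R m →* ℂ) {W : Type*} [AddCommGroup W]
    [Module ℂ W] (σ : Representation ℂ (G m) W)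
    (hirr : ∀ U : Submodule ℂ W, (∀ g, ∀ x ∈ U, σ g x ∈ U) → U = ⊥ ∨ U = ⊤) {u : W} (hu : u ≠ 0)
    (heig : ∀ r : R m, σ (r : G m) u = χ r • u) :
    ∃ T : W →ₗ[ℂ] S m ⊗[ℂ] S m, Function.Injective T ∧
      ∀ g x, T (σ g x) = (specht m).tprod (specht m) g (T x) := by
  obtain ⟨T, hT, hT'⟩ := exists_map_of_slice (slice χ) σ hu heig
  have hker : LinearMap.ker T = ⊥ := by
    refine (hirr (LinearMap.ker T) fun g x hx => ?_).resolve_right
      fun e => hT (LinearMap.ker_eq_top.1 e)
    rw [LinearMap.mem_ker] at hx ⊢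
    rw [hT', hx, map_zero]
  refine ⟨T, fun a b hab => ?_, hT'⟩
  have hmem : a - b ∈ LinearMap.ker T := by
    rw [LinearMap.mem_ker, sub_eq_add_neg, map_add, ← neg_one_smul ℂ b, map_smul, hab]
    rw [← one_smul ℂ (T b), smul_smul, ← add_smul]
    simp
  rw [hker, Submodule.mem_bot, sub_eq_zero] at hmem
  exact hmem

end Vale.Agent.P197.Specht
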