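import Vale.Agent.P197.Square
import Vale.Agent.P197.Specht.Class

/-!
P197: a vector fixed by the row stabiliser modulo two gives an occurrence in the tensor square.
-/

namespace Vale.Agent.P197.Specht

open Finset
open scoped TensorProduct Classical

variable {m : ℕ}

theorem tabZ_row (g : G m) :
    ((tabZ m (rowFn ∘ ⇑g) : ℤ) : ZMod 2) = if ∃ r ∈ R m, ∃ c ∈ C m, g = r * c then 1 else 0 := by
  rw [tabZ_mod]
  split_ifs with h1 h2 h2
  · obtain ⟨r, hr, c, hc, rfl⟩ := h2
    rw [Equiv.Perm.coe_mul, ← Function.comp_assoc, comp_row hr, tabloid_col c hc, tabloid_row,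
      mul_one] at h1
    exact absurd h1 fun h0 => by simpa [h0] using sgn_mul_self c
  · rfl
  · rfl
  · exact absurd (tabloid_ne_zero h1) h2

theorem rc_injective : Function.Injective fun p : R m × C m => (p.1 : G m) * (p.2 : G m) := by
  intro a b h
  replace h : (a.1 : G m) * (a.2 : G m) = (b.1 : G m) * (b.2 : G m) := h
  have h1 : (a.2 : G m) * (b.2 : G m)⁻¹ = (a.1 : G m)⁻¹ * (b.1 : G m) := by
    rw [mul_inv_eq_iff_eq_mul, mul_assoc, ← h, inv_mul_cancel_left]
  have h2 := eq_one (h1 ▸ (R m).mul_mem ((R m).inv_mem a.1.2) b.1.2)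
    ((C m).mul_mem a.2.2 ((C m).inv_mem b.2.2))
  have h3 : (a.2 : G m) = b.2 := mul_inv_eq_one.1 h2
  exact Prod.ext (Subtype.ext (mul_right_cancel (h3 ▸ h))) (Subtype.ext h3)

theorem row_sum {c : C m} :
    ∑ r : R m, ((tabZ m (colFn ∘ ⇑((r : G m) * (c : G m) * rev m)) : ℤ) : ZMod 2) =
      if c = 1 then 1 else 0 := by
  by_cases h : c = 1
  · subst h
    simpa using parity_rev (m := m)
  · rw [if_neg h]
    simp only [mul_assoc]
    exact parity fun ⟨r, hr, d, hd, e⟩ => h (Subtype.ext (eq_one_of_mem c.2 hr hd e))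

/-- An integral coefficient function of `σ`, odd at the identity and invariant modulo two under
the row stabiliser, gives a nonzero equivariant map into the tensor square. -/
theorem exists_map_of_fixed_mod_two {W : Type*} [AddCommGroup W] [Module ℂ W]
    (σ : Representation ℂ (G m) W) (φ : W →ₗ[ℂ] ℂ) (u : W) (ψ : G m → ℤ)
    (hψ : ∀ g, φ (σ g u) = ψ g) (hfix : ∀ g, ∀ r ∈ R m, (2 : ℤ) ∣ ψ (g * r) - ψ g)
    (hodd : ¬ (2 : ℤ) ∣ ψ 1) :
    ∃ T : W →ₗ[ℂ] S m ⊗[ℂ] S m, T ≠ 0 ∧
      ∀ g x, T (σ g x) = (specht m).tprod (specht m) g (T x) := by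
  refine exists_map_to_square (specht m) σ
    (f := fun g => tabloid m (colFn ∘ ⇑(g * rev m))) (h := fun g => tabloid m (rowFn ∘ ⇑g))
    (coef_le (Submodule.subset_span
      ⟨LinearMap.proj colFn, act m (rev m) (tabloid m), act_mem _ tabloid_mem, rfl⟩))
    (coef_le (Submodule.subset_span ⟨LinearMap.proj rowFn, tabloid m, tabloid_mem, rfl⟩)) φ u ?_
  simp only [hψ, ← tabZ_cast, ← Int.cast_mul, ← Int.cast_sum, Int.cast_ne_zero]
  intro h0
  have h2 := congrArg (fun z : ℤ => (z : ZMod 2)) h0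
  simp only [Int.cast_sum, Int.cast_mul, Int.cast_zero, tabZ_row, mul_ite, mul_one, mul_zero,
    ite_mul, zero_mul] at h2
  have hfix' : ∀ g, ∀ r ∈ R m, ((ψ (g * r) : ℤ) : ZMod 2) = ψ g := fun g r hr => by
    have := (ZMod.intCast_zmod_eq_zero_iff_dvd _ 2).2 (hfix g r hr)
    rwa [Int.cast_sub, sub_eq_zero] at this
  have hset : (univ.filter fun g : G m => ∃ r ∈ R m, ∃ c ∈ C m, g = r * c) =
      univ.image fun p : R m × C m => (p.1 : G m) * (p.2 : G m) := by
    ext g
    simp only [mem_filter, mem_univ, true_and, mem_image, Prod.exists, Subtype.exists,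
      exists_prop]
    tauto
  rw [← sum_filter, hset, sum_image fun a _ b _ h => rc_injective h, Fintype.sum_prod_type,
    sum_comm] at h2
  simp only [mul_inv_rev, hfix' _ _ ((R m).inv_mem (Subtype.prop _)), ← sum_mul, row_sum,
    ite_mul, one_mul, zero_mul, Fintype.sum_ite_eq', Subgroup.coe_one, inv_one] at h2
  exact hodd ((ZMod.intCast_zmod_eq_zero_iff_dvd _ 2).1 h2)

end Vale.Agent.P197.Specht
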