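import Mathlib

/-!
P197: the staircase Specht module inside the permutation module of row assignments.

A box of the staircase with `m` rows is a pair `(i, j)` with `i + j < m`. A row assignment sends
each box to a row; the tabloids of the staircase shape are the assignments in the orbit of the
identity assignment `rowFn`, and `S m` is the span of the translates of the polytabloid.
-/

namespace Vale.Agent.P197.Specht

open Finset

/-- Boxes of the staircase with `m` rows. -/
abbrev Box (m : ℕ) := {p : Fin m × Fin m // (p.1 : ℕ) + p.2 < m}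

variable {m : ℕ}

/-- The row of a box. -/
def rowFn (b : Box m) : Fin m := b.1.1

/-- The column of a box. -/
def colFn (b : Box m) : Fin m := b.1.2

/-- The symmetric group on the boxes. -/
abbrev G (m : ℕ) := Equiv.Perm (Box m)

/-- The stabiliser of a colouring of the boxes. -/
def fiberStab (f : Box m → Fin m) : Subgroup (G m) where
  carrier := {g | ∀ b, f (g b) = f b}
  one_mem' _ := rfl
  mul_mem' {g h} hg hh b := (hg (h b)).trans (hh b)
  inv_mem' {g} hg b := (hg (g⁻¹ b)).symm.trans (by simp)

/-- The row stabiliser. -/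
abbrev R (m : ℕ) : Subgroup (G m) := fiberStab rowFn

/-- The column stabiliser. -/
abbrev C (m : ℕ) : Subgroup (G m) := fiberStab colFn

/-- Functions on row assignments. -/
abbrev M (m : ℕ) := (Box m → Fin m) → ℂ

theorem act_one_aux :
    (LinearMap.funLeft ℂ ℂ fun (t : Box m → Fin m) => t ∘ (1 : G m)) =
      (1 : Module.End ℂ (M m)) := rfl

theorem act_mul_aux (g h : G m) :
    (LinearMap.funLeft ℂ ℂ fun (t : Box m → Fin m) => t ∘ (g * h)) =
      (LinearMap.funLeft ℂ ℂ fun (t : Box m → Fin m) => t ∘ g) *
        ((LinearMap.funLeft ℂ ℂ fun (t : Box m → Fin m) => t ∘ h) : Module.End ℂ (M m)) := rfl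

/-- The permutation action on functions on row assignments. -/
def act (m : ℕ) : Representation ℂ (G m) (M m) where
  toFun g := LinearMap.funLeft ℂ ℂ fun (t : Box m → Fin m) => t ∘ g
  map_one' := act_one_aux
  map_mul' := act_mul_aux

theorem sgn_one_aux : ((Equiv.Perm.sign (1 : G m) : ℤ) : ℂ) = 1 := by simp

theorem sgn_mul_aux (g h : G m) : ((Equiv.Perm.sign (g * h) : ℤ) : ℂ) =
    ((Equiv.Perm.sign g : ℤ) : ℂ) * ((Equiv.Perm.sign h : ℤ) : ℂ) := by simp

/-- The sign of a permutation as a complex number. -/
def sgn : G m →* ℂ where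
  toFun g := ((Equiv.Perm.sign g : ℤ) : ℂ)
  map_one' := sgn_one_aux
  map_mul' := sgn_mul_aux

open Classical in
/-- The polytabloid of the row filled tableau. -/
noncomputable def tabloid (m : ℕ) : M m :=
  fun t => ∑ c : C m, if t = rowFn ∘ (c : G m) then sgn (c : G m) else 0

/-- The Specht module of the staircase. -/
noncomputable def S (m : ℕ) : Submodule ℂ (M m) :=
  Submodule.span ℂ (Set.range fun g => act m g (tabloid m))

/-- Coefficient functions of the Specht module. -/
noncomputable def Coef (m : ℕ) : Submodule ℂ (G m → ℂ) :=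
  Submodule.span ℂ {F | ∃ φ : M m →ₗ[ℂ] ℂ, ∃ v ∈ S m, F = fun g => φ (act m g v)}

/-- A coefficient function which on `R C` is a character of `R` times the indicator of `c = 1`. -/
def Slice (m : ℕ) (χ : R m →* ℂ) : Prop :=
  ∃ F ∈ Coef m, ∀ r : R m, (∀ c : C m, c ≠ 1 → F ((r : G m) * (c : G m)) = 0) ∧ F (r : G m) = χ r

end Vale.Agent.P197.Specht
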