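import Vale.Agent.P197.Specht.Defs

/-!
P197: elementary properties of the polytabloid of the staircase.
-/

namespace Vale.Agent.P197.Specht

open Finset

variable {m : ℕ}

theorem act_apply (g : G m) (x : M m) (t : Box m → Fin m) : act m g x t = x (t ∘ g) := rfl

theorem act_mul (g h : G m) (x : M m) : act m (g * h) x = act m g (act m h x) := rfl

theorem sgn_mul_self (g : G m) : sgn g * sgn g = 1 := by
  rw [← map_mul]
  show ((Equiv.Perm.sign (g * g) : ℤ) : ℂ) = 1
  rcases Int.units_eq_one_or (Equiv.Perm.sign g) with h | h <;> simp [h]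

theorem sgn_inv (g : G m) : sgn g⁻¹ = sgn g := by
  show ((Equiv.Perm.sign g⁻¹ : ℤ) : ℂ) = ((Equiv.Perm.sign g : ℤ) : ℂ)
  simp

theorem comp_row {r : G m} (h : r ∈ R m) : rowFn ∘ r = rowFn := funext h

theorem comp_col {c : G m} (h : c ∈ C m) : colFn ∘ c = colFn := funext h

theorem eq_one {g : G m} (hr : g ∈ R m) (hc : g ∈ C m) : g = 1 :=
  Equiv.ext fun b => Subtype.ext (Prod.ext (hr b) (hc b))

theorem tabloid_col (c : G m) (hc : c ∈ C m) (t : Box m → Fin m) :
    tabloid m (t ∘ c) = sgn c * tabloid m t := by
  classical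
  simp only [tabloid, mul_sum]
  refine Fintype.sum_equiv (Equiv.mulRight (⟨c, hc⟩⁻¹ : C m)) _ _ fun a => ?_
  have e : t ∘ c = rowFn ∘ (a : G m) ↔ t = rowFn ∘ ((a : G m) * c⁻¹ : G m) := by
    constructor <;> intro h <;> funext b
    · have := congrFun h (c⁻¹ b); simpa using this
    · have := congrFun h (c b); simpa using this
  simp only [Equiv.coe_mulRight, Subgroup.coe_mul, InvMemClass.coe_inv, e, mul_ite, mul_zero,
    map_mul, sgn_inv]
  refine if_congr Iff.rfl ?_ rfl
  rw [mul_comm (sgn (a : G m)), ← mul_assoc, sgn_mul_self, one_mul]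

theorem tabloid_row : tabloid m rowFn = 1 := by
  classical
  rw [tabloid, Fintype.sum_eq_single (1 : C m)]
  · simp
  · intro c hc
    rw [if_neg]
    exact fun h => hc (Subtype.ext (eq_one (fun b => (congrFun h b).symm) c.2))

theorem tabloid_ne_zero {g : G m} (h : tabloid m (rowFn ∘ g) ≠ 0) :
    ∃ r ∈ R m, ∃ c ∈ C m, g = r * c := by
  classical
  obtain ⟨c, -, hc⟩ := exists_ne_zero_of_sum_ne_zero h
  have hc' : rowFn ∘ g = rowFn ∘ (c : G m) := by_contra fun h => hc (if_neg h)
  refine ⟨g * (c : G m)⁻¹, fun b => ?_, c, c.2, by simp⟩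
  simpa using congrFun hc' ((c : G m)⁻¹ b)

theorem tabloid_mem : tabloid m ∈ S m :=
  Submodule.subset_span ⟨1, rfl⟩

theorem act_mem (g : G m) {x : M m} (hx : x ∈ S m) : act m g x ∈ S m := by
  induction hx using Submodule.span_induction with
  | mem x hx =>
    obtain ⟨h, rfl⟩ := hx
    exact Submodule.subset_span ⟨g * h, rfl⟩
  | zero => simp
  | add x y _ _ hx hy => rw [map_add]; exact add_mem hx hy
  | smul a x _ hx => rw [map_smul]; exact Submodule.smul_mem _ a hx

/-- A tabloid meeting every column injectively comes from the column stabiliser. -/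
theorem exists_col (g : G m) (hinj : ∀ a b, colFn a = colFn b → rowFn (g a) = rowFn (g b) → a = b) :
    ∃ c ∈ C m, rowFn ∘ g = rowFn ∘ c := by
  classical
  have hlt : ∀ b, (rowFn (g b) : ℕ) + (colFn b : ℕ) < m := by
    intro b₀
    by_contra hb
    set k := m - (colFn b₀ : ℕ) with hk
    set F : Fin m → Finset (Box m) := fun j => univ.filter fun b => colFn b = j with hF
    have hle : ∀ j, ((F j).filter fun b => (rowFn (g b) : ℕ) < k).card ≤
        ((F j).filter fun b => (rowFn b : ℕ) < k).card := by
      intro j
      rcases le_or_gt (k + (j : ℕ)) m with h | h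
      · refine card_le_card_of_injOn (fun b => if hb : (rowFn (g b) : ℕ) + j < m then
          ⟨(rowFn (g b), j), hb⟩ else b) ?_ ?_
        · intro b hb
          simp only [hF, coe_filter, mem_filter, mem_univ, true_and, Set.mem_ofPred_eq] at hb ⊢
          rw [dif_pos (by omega)]
          exact ⟨rfl, hb.2⟩
        · intro a ha b hb e
          simp only [hF, coe_filter, mem_filter, mem_univ, true_and, Set.mem_ofPred_eq] at ha hb
          simp only [dif_pos (show (rowFn (g a) : ℕ) + j < m by omega),
            dif_pos (show (rowFn (g b) : ℕ) + j < m by omega), Subtype.mk.injEq,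
            Prod.mk.injEq, and_true] at e
          exact hinj a b (ha.1.trans hb.1.symm) e
      · refine card_le_card fun b hb => ?_
        simp only [hF, mem_filter, mem_univ, true_and] at hb ⊢
        refine ⟨hb.1, ?_⟩
        have := b.2
        simp only [colFn] at hb
        simp only [rowFn]
        rw [hb.1] at this
        omega
    have hlt : ((F (colFn b₀)).filter fun b => (rowFn (g b) : ℕ) < k).card <
        ((F (colFn b₀)).filter fun b => (rowFn b : ℕ) < k).card := by
      refine lt_of_lt_of_le (b := (F (colFn b₀)).card) ?_ ?_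
      · refine card_lt_card ⟨filter_subset _ _, fun h => ?_⟩
        have := (mem_filter.1 (h (by simp [hF] : b₀ ∈ F (colFn b₀)))).2
        omega
      · refine card_le_card fun b hb => ?_
        simp only [hF, mem_filter, mem_univ, true_and] at hb ⊢
        refine ⟨hb, ?_⟩
        have := b.2
        simp only [colFn] at hb hk
        simp only [rowFn]
        rw [hb] at this
        omega
    have htot : ∑ j, ((F j).filter fun b => (rowFn (g b) : ℕ) < k).card <
        ∑ j, ((F j).filter fun b => (rowFn b : ℕ) < k).card :=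
      sum_lt_sum (fun j _ => hle j) ⟨_, mem_univ _, hlt⟩
    have hs : ∀ f : Box m → ℕ, ∑ j, ((F j).filter fun b => f b < k).card =
        (univ.filter fun b => f b < k).card := fun f => by
      rw [card_eq_sum_card_fiberwise (f := colFn) (t := univ) fun b _ => mem_univ _]
      refine sum_congr rfl fun j _ => ?_
      simp only [hF, filter_filter, and_comm]
    rw [hs fun b => (rowFn (g b) : ℕ), hs fun b => (rowFn b : ℕ)] at htot
    refine htot.ne (card_equiv g fun b => ?_)
    simp
  let c : Box m → Box m := fun b => ⟨(rowFn (g b), colFn b), hlt b⟩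
  have hc : Function.Injective c := fun a b e => by
    simp only [c, Subtype.mk.injEq, Prod.mk.injEq] at e
    exact hinj a b e.2 e.1
  exact ⟨Equiv.ofBijective c (Finite.injective_iff_bijective.1 hc), fun b => rfl, rfl⟩

end Vale.Agent.P197.Specht
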